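import Mathlib

/-! P259: definitions used in the statement of the homotopy hypothesis. -/

open CategoryTheory Limits Opposite

noncomputable section

namespace Vale.Agent.P259

/-! ### The globe category -/

/-- Vertices of the generating quiver of the globe category. -/
structure GlobeV where
  n : ℕ

/-- Generating arrows `cs n, ct n : D n ⟶ D (n+1)` (the maps sigma and tau). -/
inductive GlobeE : GlobeV → GlobeV → Type
  | cs (n : ℕ) : GlobeE ⟨n⟩ ⟨n + 1⟩
  | ct (n : ℕ) : GlobeE ⟨n⟩ ⟨n + 1⟩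

instance globeQuiver : Quiver GlobeV := ⟨GlobeE⟩

/-- The free category on the generating quiver. -/
abbrev GlobeP : Type := Paths GlobeV

instance globePCat : SmallCategory GlobeP := Paths.categoryPaths GlobeV

def pD (n : ℕ) : GlobeP := (Paths.of GlobeV).obj ⟨n⟩

def pcs (n : ℕ) : pD n ⟶ pD (n + 1) := (Paths.of GlobeV).map (GlobeE.cs n)

def pct (n : ℕ) : pD n ⟶ pD (n + 1) := (Paths.of GlobeV).map (GlobeE.ct n)

/-- The globular relations. -/
inductive GlobeRelI : {X Y : GlobeP} → (X ⟶ Y) → (X ⟶ Y) → Prop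
  | ss (n : ℕ) : GlobeRelI (pcs n ≫ pcs (n + 1)) (pcs n ≫ pct (n + 1))
  | tt (n : ℕ) : GlobeRelI (pct n ≫ pcs (n + 1)) (pct n ≫ pct (n + 1))

def GlobeRel : HomRel GlobeP := fun _ _ f g => GlobeRelI f g

/-- The globe category: generated by `cs n, ct n` subject to the globular relations. -/
abbrev Globe : Type := CategoryTheory.Quotient GlobeRel

instance globeCat : SmallCategory Globe := Quotient.category GlobeRel

/-- The composite `D j ⟶ D (j + 1) ⟶ ⋯ ⟶ D i` of the maps `s k`. -/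
def iterMap {C : Type} [SmallCategory C] {D : ℕ → C} (s : ∀ k, D k ⟶ D (k + 1)) {j i : ℕ}
    (h : j ≤ i) : D j ⟶ D i :=
  Nat.leRec (motive := fun k _ => D j ⟶ D k) (𝟙 (D j)) (fun k _ f => f ≫ s k) h

namespace Globe

def D (n : ℕ) : Globe := (Quotient.functor GlobeRel).obj (pD n)

def cs (n : ℕ) : D n ⟶ D (n + 1) := (Quotient.functor GlobeRel).map (pcs n)

def ct (n : ℕ) : D n ⟶ D (n + 1) := (Quotient.functor GlobeRel).map (pct n)

/-- The iterated source map `D j ⟶ D i`. -/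
def sig {j i : ℕ} (h : j ≤ i) : D j ⟶ D i := iterMap cs h

/-- The iterated target map `D j ⟶ D i`. -/
def tau {j i : ℕ} (h : j ≤ i) : D j ⟶ D i := iterMap ct h

end Globe

/-- Presheaves on the globe category (globular sets). -/
abbrev GPsh : Type 1 := Globeᵒᵖ ⥤ Type

instance gpshCat : LargeCategory GPsh := Functor.category

/-- The Yoneda embedding of the globe category. -/
abbrev yG : Globe ⥤ GPsh := yoneda

theorem gpsh_hasPushouts : HasPushouts GPsh := inferInstance

/-! ### Globular sums and `Θ₀` -/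

/-- Tables of dimensions `(i₁, j₁, i₂, …, i_k)` with `j_l < min (i_l, i_{l+1})`, indexed by the
last entry `i_k`. -/
inductive Tab : ℕ → Type
  | base (i : ℕ) : Tab i
  | snoc {l : ℕ} (T : Tab l) (j i : ℕ) (hl : j < l) (hi : j < i) : Tab i

/-- The dimension `max i_l` of a table. -/
def Tab.dim {l : ℕ} (T : Tab l) : ℕ :=
  Tab.rec (motive := fun _ _ => ℕ) (fun i => i) (fun _ _ i _ _ d => max d i) T

/-- The iterated pushout of a table (target glued to source) along a functor `y` from the globe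
category, with the inclusion of its last disc. -/
def Tab.sumIn {C : Type 1} [LargeCategory C] [HasPushouts C] (y : Globe ⥤ C) {l : ℕ} (T : Tab l) :
    Σ X : C, (y.obj (Globe.D l) ⟶ X) :=
  Tab.rec (motive := fun l _ => Σ X : C, (y.obj (Globe.D l) ⟶ X))
    (fun i => ⟨y.obj (Globe.D i), 𝟙 _⟩)
    (fun _ _ _ hl hi S =>
      ⟨pushout (y.map (Globe.tau hl.le) ≫ S.2) (y.map (Globe.sig hi.le)), pushout.inr _ _⟩) T

/-- The globular sum of a table, with the inclusion of its last disc. -/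
def Tab.sum {l : ℕ} (T : Tab l) : Σ X : GPsh, (yG.obj (Globe.D l) ⟶ X) :=
  @Tab.sumIn GPsh _ gpsh_hasPushouts yG l T

/-- The presheaf of a table. -/
abbrev tabPsh (T : Σ l, Tab l) : GPsh := T.2.sum.1

/-- The category of globular sums: full on the presheaves `Tab.sum T`. -/
abbrev Theta : Type := InducedCategory GPsh tabPsh

instance thetaCat : SmallCategory Theta := InducedCategory.instCategory

namespace Theta

abbrev mk {l : ℕ} (T : Tab l) : Theta := ⟨l, T⟩

def dim (S : Theta) : ℕ := S.2.dim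

abbrev D (n : ℕ) : Theta := mk (.base n)

/-- A map of presheaves as a morphism of `Θ₀`. -/
abbrev homMk {S T : Theta} (f : tabPsh S ⟶ tabPsh T) : S ⟶ T := InducedCategory.homMk f

def cs (n : ℕ) : D n ⟶ D (n + 1) := homMk (yG.map (Globe.cs n))

def ct (n : ℕ) : D n ⟶ D (n + 1) := homMk (yG.map (Globe.ct n))

variable {l : ℕ} (T : Tab l) (j i : ℕ) (hl : j < l) (hi : j < i)

/-- `D j ⟶ T`, the iterated target of the last disc. -/
def sqL : D j ⟶ mk T := homMk (yG.map (Globe.tau hl.le) ≫ T.sum.2)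

/-- `D j ⟶ D i`, the iterated source. -/
def sqT : D j ⟶ D i := homMk (yG.map (Globe.sig hi.le))

def inl : mk T ⟶ mk (T.snoc j i hl hi) := homMk (pushout.inl (sqL T j hl).hom (sqT j i hi).hom)

def inr : D i ⟶ mk (T.snoc j i hl hi) := homMk (pushout.inr (sqL T j hl).hom (sqT j i hi).hom)

end Theta

/-- A functor out of `Θ₀` preserves globular sums: each gluing square goes to a pushout. -/
def PreservesSums {C : Type*} [Category C] (F : Theta ⥤ C) : Prop :=
  ∀ (l : ℕ) (T : Tab l) (j i : ℕ) (hl : j < l) (hi : j < i),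
    IsPushout (F.map (Theta.sqL T j hl)) (F.map (Theta.sqT j i hi))
      (F.map (Theta.inl T j i hl hi)) (F.map (Theta.inr T j i hl hi))

/-! ### Globular extensions and coherators -/

/-- A globular extension. -/
structure GlobExt where
  C : Type
  [cat : SmallCategory C]
  F : Theta ⥤ C
  bij : Function.Bijective F.obj
  pres : PreservesSums F

attribute [instance] GlobExt.cat

namespace GlobExt

/-- `Θ₀` itself. -/
def theta : GlobExt where
  C := Theta
  F := 𝟭 _
  bij := Function.bijective_id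
  pres := fun _ _ _ _ _ _ =>
    IsPushout.of_map_of_faithful (inducedFunctor _) (IsPushout.of_hasPushout _ _)

variable (E : GlobExt)

abbrev D (n : ℕ) : E.C := E.F.obj (Theta.D n)

abbrev cs (n : ℕ) : E.D n ⟶ E.D (n + 1) := E.F.map (Theta.cs n)

abbrev ct (n : ℕ) : E.D n ⟶ E.D (n + 1) := E.F.map (Theta.ct n)

variable {E}

/-- Parallel maps `D n ⟶ S`. -/
def Parallel {S : E.C} {n : ℕ} : (E.D n ⟶ S) → (E.D n ⟶ S) → Prop :=
  Nat.casesOn (motive := fun n => (E.D n ⟶ S) → (E.D n ⟶ S) → Prop) n (fun _ _ => True)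
    fun n f g => E.cs n ≫ f = E.cs n ≫ g ∧ E.ct n ≫ f = E.ct n ≫ g

/-- `h` is a lift of the pair `(f, g)`. -/
def IsLift {S : E.C} {n : ℕ} (h : E.D (n + 1) ⟶ S) (f g : E.D n ⟶ S) : Prop :=
  E.cs n ≫ h = f ∧ E.ct n ≫ h = g

/-- Morphisms of globular extensions: functors under `Θ₀`. -/
@[ext]
structure Hom (A B : GlobExt) where
  G : A.C ⥤ B.C
  w : A.F ⋙ G = B.F

def Hom.comp {A B E : GlobExt} (f : Hom A B) (g : Hom B E) : Hom A E :=
  ⟨f.G ⋙ g.G, by rw [← Functor.assoc, f.w, g.w]⟩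

/-- The image of a map between globular sums under a morphism of globular extensions. -/
def Hom.push {A B : GlobExt} (G : Hom A B) {S T : Theta} (f : A.F.obj S ⟶ A.F.obj T) :
    B.F.obj S ⟶ B.F.obj T :=
  eqToHom (Functor.congr_obj G.w S).symm ≫ G.G.map f ≫ eqToHom (Functor.congr_obj G.w T)

/-- Parallel pairs `D n ⇉ S` with `dim S ≤ n + 1`. -/
structure Pair (E : GlobExt) where
  n : ℕ
  S : Theta
  f : E.D n ⟶ E.F.obj S
  g : E.D n ⟶ E.F.obj S
  par : Parallel f g
  dim_le : S.dim ≤ n + 1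

/-- `j : A ⟶ B` universally adjoins lifts of the pairs in `P`. -/
def Adjoins {A B : GlobExt} (j : Hom A B) (P : Set A.Pair) : Prop :=
  ∃ h : ∀ p : P, B.D (p.1.n + 1) ⟶ B.F.obj p.1.S,
    (∀ p : P, IsLift (h p) (j.push p.1.f) (j.push p.1.g)) ∧
    ∀ (E : GlobExt) (G : Hom A E) (l : ∀ p : P, E.D (p.1.n + 1) ⟶ E.F.obj p.1.S),
      (∀ p : P, IsLift (l p) (G.push p.1.f) (G.push p.1.g)) →
        ∃! G' : Hom B E, j.comp G' = G ∧ ∀ p : P, G'.push (h p) = l p

/-- Coherators: colimits of towers starting at `Θ₀` whose steps universally adjoin lifts, in which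
every parallel pair has a lift. -/
def IsCoherator (C : GlobExt) : Prop :=
  (∃ (tower : ℕ → GlobExt) (step : ∀ k, Hom (tower k) (tower (k + 1)))
      (ι : ∀ k, Hom (tower k) C),
    tower 0 = theta ∧ (∀ k, ∃ P, Adjoins (step k) P) ∧
    (∀ k, (step k).comp (ι (k + 1)) = ι k) ∧
    ∀ (E : GlobExt) (G : ∀ k, Hom (tower k) E), (∀ k, (step k).comp (G (k + 1)) = G k) →
      ∃! G' : Hom C E, ∀ k, (ι k).comp G' = G k) ∧
  ∀ (S : C.C) (n : ℕ) (f g : C.D n ⟶ S), Parallel f g → ∃ h, IsLift h f g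

/-! ### Infinity-groupoids and their weak equivalences -/

/-- The action of a presheaf of sets on a morphism. -/
def pull {A : Type} [SmallCategory A] (X : Aᵒᵖ ⥤ Type) {a b : A} (θ : a ⟶ b) :
    X.obj (op b) → X.obj (op a) := X.map θ.op

/-- The component of a morphism of presheaves of sets. -/
def comp {A : Type} [SmallCategory A] {X Y : Aᵒᵖ ⥤ Type} (f : X ⟶ Y) (a : A) :
    X.obj (op a) → Y.obj (op a) := f.app (op a)

/-- `X` sends each gluing square of globular sums to a pullback. -/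
def SumsToPullbacks {A : Type} [SmallCategory A] (F : Theta ⥤ A) (X : Aᵒᵖ ⥤ Type) : Prop :=
  ∀ (l : ℕ) (T : Tab l) (j i : ℕ) (hl : j < l) (hi : j < i),
    IsPullback (X.map (F.map (Theta.inl T j i hl hi)).op) (X.map (F.map (Theta.inr T j i hl hi)).op)
      (X.map (F.map (Theta.sqL T j hl)).op) (X.map (F.map (Theta.sqT j i hi)).op)

variable (C : GlobExt)

/-- Presheaves of sets on `C`. -/
abbrev Psh : Type 1 := C.Cᵒᵖ ⥤ Type

instance pshCat : LargeCategory C.Psh := Functor.category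

/-- Presheaves of sets sending globular sums to iterated fibre products. -/
def IsModel : ObjectProperty C.Psh := fun X => SumsToPullbacks C.F X

/-- The category of `C`-infinity-groupoids. -/
abbrev Gpd : Type 1 := C.IsModel.FullSubcategory

instance gpdCat : LargeCategory C.Gpd := ObjectProperty.FullSubcategory.category _

/-- A choice of lifts of the pairs `(𝟙, 𝟙)`, giving identity cells. -/
structure Units where
  κ : ∀ n, C.D (n + 1) ⟶ C.D n
  isLift : ∀ n, IsLift (κ n) (𝟙 _) (𝟙 _)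

variable {C}

/-- The `n`-cells. -/
abbrev Cell (X : C.Gpd) (n : ℕ) : Type := X.obj.obj (op (C.D n))

/-- The operation on cells given by `θ`. -/
abbrev cellOp (X : C.Gpd) {m n : ℕ} (θ : C.D m ⟶ C.D n) : Cell X n → Cell X m := pull X.obj θ

/-- There is an `(n+1)`-cell from `a` to `b`. -/
def Conn (X : C.Gpd) {n : ℕ} (a b : Cell X n) : Prop :=
  ∃ h : Cell X (n + 1), cellOp X (C.cs n) h = a ∧ cellOp X (C.ct n) h = b

/-- The iterated identity `1^n_x`. -/
def idn (u : C.Units) (X : C.Gpd) (x : Cell X 0) (n : ℕ) : Cell X n :=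
  Nat.rec (motive := fun k => Cell X k) x (fun k a => cellOp X (u.κ k) a) n

/-- `(n+1)`-cells `1^n_x ⟶ 1^n_x`. -/
def Loop (u : C.Units) (X : C.Gpd) (x : Cell X 0) (n : ℕ) : Type :=
  {a : Cell X (n + 1) // cellOp X (C.cs n) a = idn u X x n ∧ cellOp X (C.ct n) a = idn u X x n}

def Pi0 (X : C.Gpd) : Type := Quot (fun a b : Cell X 0 => Conn X a b)

/-- `π_{n+1}(X, x)`. -/
def PiSucc (u : C.Units) (X : C.Gpd) (x : Cell X 0) (n : ℕ) : Type :=
  Quot (fun a b : Loop u X x n => Conn X a.1 b.1)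

def cellMap {X Y : C.Gpd} (f : X ⟶ Y) (n : ℕ) : Cell X n → Cell Y n := comp f.hom (C.D n)

theorem cellMap_map {X Y : C.Gpd} (f : X ⟶ Y) {m n : ℕ} (θ : C.D m ⟶ C.D n) (a : Cell X n) :
    cellOp Y θ (cellMap f n a) = cellMap f m (cellOp X θ a) :=
  (NatTrans.naturality_apply f.hom θ.op a).symm

theorem Conn.map {X Y : C.Gpd} (f : X ⟶ Y) {n : ℕ} {a b : Cell X n} (h : Conn X a b) :
    Conn Y (cellMap f n a) (cellMap f n b) := by
  obtain ⟨c, rfl, rfl⟩ := h
  exact ⟨cellMap f _ c, cellMap_map f _ c, cellMap_map f _ c⟩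

theorem cellMap_idn (u : C.Units) {X Y : C.Gpd} (f : X ⟶ Y) (x : Cell X 0) (n : ℕ) :
    cellMap f n (idn u X x n) = idn u Y (cellMap f 0 x) n := by
  induction n with
  | zero => rfl
  | succ n ih => exact (cellMap_map f _ _).symm.trans (congrArg _ ih)

def loopMap (u : C.Units) {X Y : C.Gpd} (f : X ⟶ Y) (x : Cell X 0) (n : ℕ) (a : Loop u X x n) :
    Loop u Y (cellMap f 0 x) n :=
  ⟨cellMap f _ a.1, by rw [cellMap_map, a.2.1, cellMap_idn],
    by rw [cellMap_map, a.2.2, cellMap_idn]⟩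

def pi0Map {X Y : C.Gpd} (f : X ⟶ Y) : Pi0 X → Pi0 Y :=
  Quot.map (cellMap f 0) (fun _ _ h => h.map f)

def piSuccMap (u : C.Units) {X Y : C.Gpd} (f : X ⟶ Y) (x : Cell X 0) (n : ℕ) :
    PiSucc u X x n → PiSucc u Y (cellMap f 0 x) n :=
  Quot.map (loopMap u f x n) (fun _ _ h => h.map f)

/-- Weak equivalences of infinity-groupoids. -/
def WeakEq (u : C.Units) : MorphismProperty C.Gpd := fun _ _ f =>
  Function.Bijective (pi0Map f) ∧ ∀ x n, Function.Bijective (piSuccMap u f x n)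

end GlobExt

/-! ### Spaces -/

/-- Compactly generated spaces. -/
abbrev CG : Type 1 := CompactlyGenerated.{0, 0}

/-- The closed `n`-disc. -/
abbrev Disc (n : ℕ) : Type := Metric.closedBall (0 : EuclideanSpace ℝ (Fin n)) 1

instance discTop (n : ℕ) : TopologicalSpace (Disc n) := instTopologicalSpaceSubtype

/-- The point `(x, t)` of `ℝ^(n+1)`. -/
def snocPt {n : ℕ} (x : EuclideanSpace ℝ (Fin n)) (t : ℝ) : EuclideanSpace ℝ (Fin (n + 1)) :=
  WithLp.toLp 2 (Fin.snoc (α := fun _ => ℝ) (fun i => x i) t)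

theorem norm_sq_snocPt {n : ℕ} (x : EuclideanSpace ℝ (Fin n)) (t : ℝ) :
    ‖snocPt x t‖ ^ 2 = ‖x‖ ^ 2 + t ^ 2 := by
  simp [snocPt, EuclideanSpace.norm_sq_eq, Fin.sum_univ_castSucc]

theorem continuous_snocPt {n : ℕ} :
    Continuous (fun p : EuclideanSpace ℝ (Fin n) × ℝ => snocPt p.1 p.2) := by
  refine (PiLp.continuous_toLp 2 _).comp (continuous_pi fun i => ?_)
  refine Fin.lastCases ?_ (fun k => ?_) i
  · simpa using continuous_snd
  · simp only [Fin.snoc_castSucc]
    fun_prop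

/-- The point `(x, ε √(1 - ‖x‖²))`. -/
def hemiPt (ε : ℝ) {n : ℕ} (x : EuclideanSpace ℝ (Fin n)) : EuclideanSpace ℝ (Fin (n + 1)) :=
  snocPt x (ε * √(1 - ‖x‖ ^ 2))

theorem hemiPt_mem {ε : ℝ} (hε : ε ^ 2 = 1) {n : ℕ} (x : Disc n) :
    hemiPt ε x.1 ∈ Metric.closedBall (0 : EuclideanSpace ℝ (Fin (n + 1))) 1 := by
  have hx : ‖x.1‖ ≤ 1 := mem_closedBall_zero_iff.mp x.2
  have h0 : 0 ≤ 1 - ‖x.1‖ ^ 2 := by nlinarith [norm_nonneg x.1]
  have h1 : ‖hemiPt ε x.1‖ ^ 2 = 1 := by
    rw [hemiPt, norm_sq_snocPt, mul_pow, hε, Real.sq_sqrt h0]; ring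
  have h2 := norm_nonneg (hemiPt ε x.1)
  simp only [Metric.mem_closedBall, dist_zero_right]
  nlinarith

def hemiFun {ε : ℝ} (hε : ε ^ 2 = 1) (n : ℕ) (x : Disc n) : Disc (n + 1) :=
  ⟨hemiPt ε x.1, hemiPt_mem hε x⟩

theorem continuous_hemiFun {ε : ℝ} (hε : ε ^ 2 = 1) (n : ℕ) : Continuous (hemiFun hε n) :=
  Continuous.subtype_mk (continuous_snocPt.comp
    (f := fun x : Disc n => (x.1, ε * √(1 - ‖x.1‖ ^ 2))) (by fun_prop)) _

/-- The hemisphere `x ↦ (x, ε √(1 - ‖x‖²))` of the boundary of the `(n+1)`-disc, `ε = ±1`. -/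
def hemi (ε : ℝ) (hε : ε ^ 2 = 1) (n : ℕ) : C(Disc n, Disc (n + 1)) :=
  ⟨hemiFun hε n, continuous_hemiFun hε n⟩

def south (n : ℕ) : C(Disc n, Disc (n + 1)) := hemi (-1) (by norm_num) n

def north (n : ℕ) : C(Disc n, Disc (n + 1)) := hemi 1 (by norm_num) n

/-- The map induced on generalized loops. -/
def genLoopMap {X Y : Type} [TopologicalSpace X] [TopologicalSpace Y] (f : C(X, Y)) (x : X)
    (n : ℕ) (a : GenLoop (Fin n) X x) : GenLoop (Fin n) Y (f x) :=
  ⟨f.comp a.1, fun y hy => by rw [ContinuousMap.comp_apply, a.2 y hy]⟩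

/-- The map induced on `π_n`. -/
def piMap {X Y : Type} [TopologicalSpace X] [TopologicalSpace Y] (f : C(X, Y)) (x : X) (n : ℕ) :
    HomotopyGroup.Pi n X x → HomotopyGroup.Pi n Y (f x) :=
  Quotient.map (genLoopMap f x n)
    (fun _ _ h => ContinuousMap.HomotopicRel.comp_continuousMap h f)

/-- The map induced on path components. -/
def pathCompMap {X Y : Type} [TopologicalSpace X] [TopologicalSpace Y] (f : C(X, Y)) :
    ZerothHomotopy X → ZerothHomotopy Y :=
  Quotient.map f (fun _ _ h => Joined.map h f.continuous)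

/-- Weak homotopy equivalences of spaces. -/
def IsWHE {X Y : Type} [TopologicalSpace X] [TopologicalSpace Y] (f : C(X, Y)) : Prop :=
  Function.Bijective (pathCompMap f) ∧ ∀ x n, Function.Bijective (piMap f x (n + 1))

/-- Weak homotopy equivalences of compactly generated spaces. -/
def WHE : MorphismProperty CG := fun _ _ f => IsWHE f.hom.hom

/-- The disc as a compactly generated space. -/
abbrev discCG (n : ℕ) : CG := CompactlyGenerated.of (Disc n)

abbrev southCG (n : ℕ) : discCG n ⟶ discCG (n + 1) := CompactlyGenerated.ofHom (south n)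

abbrev northCG (n : ℕ) : discCG n ⟶ discCG (n + 1) := CompactlyGenerated.ofHom (north n)

/-- The functor `Y ↦ Hom(F -, Y)`. -/
def homFrom {A : Type} [SmallCategory A] {B : Type 1} [LargeCategory B] (F : A ⥤ B) :
    B ⥤ (Aᵒᵖ ⥤ Type) := yoneda ⋙ (Functor.whiskeringLeft _ _ _).obj F.op

namespace GlobExt

variable {C : GlobExt}

/-- Disc functors. -/
def IsDiscFunctor (Dsc : C.C ⥤ CG) : Prop :=
  PreservesSums (C.F ⋙ Dsc) ∧
  ∃ e : ∀ n, Dsc.obj (C.D n) ≅ discCG n, ∀ n,
    Dsc.map (C.cs n) ≫ (e (n + 1)).hom = (e n).hom ≫ southCG n ∧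
    Dsc.map (C.ct n) ≫ (e (n + 1)).hom = (e n).hom ≫ northCG n

theorem isModel_homFrom (Dsc : C.C ⥤ CG) (h : IsDiscFunctor Dsc) (Y : CG) :
    C.IsModel ((homFrom Dsc).obj Y) :=
  fun l T j i hl hi => (h.1 l T j i hl hi).op.flip.map (yoneda.obj Y)

/-- The fundamental infinity-groupoid functor `Y ↦ Hom(Dsc -, Y)`. -/
def fundGpd (Dsc : C.C ⥤ CG) (h : IsDiscFunctor Dsc) : CG ⥤ C.Gpd :=
  ObjectProperty.lift C.IsModel (homFrom Dsc) (isModel_homFrom Dsc h)

end GlobExt

end Vale.Agent.P259
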